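import Mathlib
import Vale.Agent.P116.H906.NU

/-!
Averages of a continuous family of normalized conformal maps over a probability measure: the
average is analytic, the derivative of the average is the average of the derivatives, and the
variance identity holds.
-/

open Set Filter Topology Metric Bornology MeasureTheory

namespace Vale.Agent.P116.H521

open H906

variable {Ω : Type*} [TopologicalSpace Ω] {K : Set ℂ} {g : Ω → ℂ → ℂ}

/-- the average -/
noncomputable def av [MeasurableSpace Ω] (P : Measure Ω) (g : Ω → ℂ → ℂ) (z : ℂ) : ℂ :=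
  ∫ ω, g ω z ∂P

lemma cont_at (hc : ContinuousOn (fun p : Ω × ℂ => g p.1 p.2) (univ ×ˢ Kᶜ)) {z : ℂ}
    (hz : z ∉ K) : Continuous fun ω => g ω z :=
  hc.comp_continuous (f := fun ω : Ω => (ω, z)) (by fun_prop) fun _ => ⟨mem_univ _, hz⟩

lemma tlu (hK : IsCompact K) (hc : ContinuousOn (fun p : Ω × ℂ => g p.1 p.2) (univ ×ˢ Kᶜ))
    (ω₀ : Ω) : TendstoLocallyUniformlyOn g (g ω₀) (𝓝 ω₀) Kᶜ := by
  have hKo : IsOpen Kᶜ := hK.isClosed.isOpen_compl
  rw [tendstoLocallyUniformlyOn_iff_forall_isCompact hKo]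
  intro C hC hCc
  rw [Metric.tendstoUniformlyOn_iff]
  intro ε hε
  refine hCc.eventually_forall_of_forall_eventually fun y hy => ?_
  have hy' : y ∈ Kᶜ := hC hy
  have h1 : ContinuousAt (fun p : Ω × ℂ => g p.1 p.2) (ω₀, y) :=
    hc.continuousAt ((isOpen_univ.prod hKo).mem_nhds ⟨mem_univ _, hy'⟩)
  have h2 : ContinuousAt (fun p : Ω × ℂ => g ω₀ p.2) (ω₀, y) :=
    ContinuousAt.comp (f := fun p : Ω × ℂ => (ω₀, p.2)) (g := fun p : Ω × ℂ => g p.1 p.2)
      (x := (ω₀, y)) h1 (by fun_prop)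
  have h3 : ContinuousAt (fun p : Ω × ℂ => dist (g ω₀ p.2) (g p.1 p.2)) (ω₀, y) := h2.dist h1
  have h4 : dist (g ω₀ y) (g ω₀ y) < ε := by simpa using hε
  exact h3.eventually (gt_mem_nhds h4)

/-- the derivative is jointly continuous -/
theorem cont_deriv (hK : IsCompact K)
    (hc : ContinuousOn (fun p : Ω × ℂ => g p.1 p.2) (univ ×ˢ Kᶜ)) (hn : ∀ ω, NU Kᶜ (g ω)) :
    ContinuousOn (fun p : Ω × ℂ => deriv (g p.1) p.2) (univ ×ˢ Kᶜ) := by
  have hKo : IsOpen Kᶜ := hK.isClosed.isOpen_compl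
  rintro ⟨ω₀, z₀⟩ ⟨-, hz₀⟩
  refine ContinuousAt.continuousWithinAt ?_
  have h1 := (tlu hK hc ω₀).deriv (Eventually.of_forall fun ω => (hn ω).diff) hKo
  have h2 : ContinuousWithinAt (deriv (g ω₀)) Kᶜ z₀ :=
    ((hn ω₀).diff.deriv hKo).continuousOn z₀ hz₀
  rw [ContinuousAt, nhds_prod_eq]
  refine tendsto_comp_of_locally_uniform_limit_within (F := fun p : Ω × ℂ => deriv (g p.1))
    (g := fun p : Ω × ℂ => p.2) (s := Kᶜ) h2 ?_ ?_
  · rw [hKo.nhdsWithin_eq hz₀]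
    exact tendsto_snd
  · intro u hu
    obtain ⟨t, ht, h3⟩ := h1 u hu z₀ hz₀
    exact ⟨t, ht, h3.prod_inl _⟩

section

variable [MeasurableSpace Ω] [BorelSpace Ω] {P : Measure Ω}

lemma asm {f : Ω → ℂ} (hf : Continuous f) : AEStronglyMeasurable f P :=
  hf.aestronglyMeasurable

lemma int_of_cont [CompactSpace Ω] [IsFiniteMeasure P] {E : Type*} [NormedAddCommGroup E]
    [SecondCountableTopology E] {f : Ω → E} (hf : Continuous f) : Integrable f P := by
  obtain ⟨C, hC⟩ := isCompact_univ.exists_bound_of_continuousOn hf.continuousOn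
  exact Integrable.of_bound hf.aestronglyMeasurable C
    (Eventually.of_forall fun ω => hC ω (mem_univ _))

/-- the average is analytic -/
theorem av_hasDerivAt [CompactSpace Ω] [IsFiniteMeasure P] (hK : IsCompact K)
    (hc : ContinuousOn (fun p : Ω × ℂ => g p.1 p.2) (univ ×ˢ Kᶜ)) (hn : ∀ ω, NU Kᶜ (g ω))
    {z : ℂ} (hz : z ∉ K) : HasDerivAt (av P g) (∫ ω, deriv (g ω) z ∂P) z := by
  have hKo : IsOpen Kᶜ := hK.isClosed.isOpen_compl
  have hcd := cont_deriv hK hc hn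
  obtain ⟨r, hr, hrK⟩ := Metric.isOpen_iff.1 hKo z hz
  have hr2 : closedBall z (r / 2) ⊆ Kᶜ := (closedBall_subset_ball (by linarith)).trans hrK
  have hcomp : IsCompact ((univ : Set Ω) ×ˢ closedBall z (r / 2)) :=
    isCompact_univ.prod (isCompact_closedBall _ _)
  obtain ⟨M, hM⟩ := hcomp.exists_bound_of_continuousOn
    (hcd.mono (prod_mono Subset.rfl hr2))
  refine (hasDerivAt_integral_of_dominated_loc_of_deriv_le (μ := P) (F := fun z ω => g ω z)
    (F' := fun z ω => deriv (g ω) z) (bound := fun _ => M) (s := closedBall z (r / 2))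
    (closedBall_mem_nhds _ (by linarith)) ?_ ?_ ?_ ?_ (integrable_const _) ?_).2
  · filter_upwards [hKo.mem_nhds hz] with x hx
    exact asm (cont_at hc hx)
  · exact int_of_cont (cont_at hc hz)
  · exact asm (cont_at (g := fun ω => deriv (g ω)) hcd hz)
  · exact Eventually.of_forall fun ω x hx => hM (ω, x) ⟨mem_univ _, hx⟩
  · exact Eventually.of_forall fun ω x hx =>
      ((hn ω).diff.differentiableAt (hKo.mem_nhds (hr2 hx))).hasDerivAt

theorem av_diff [CompactSpace Ω] [IsFiniteMeasure P] (hK : IsCompact K)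
    (hc : ContinuousOn (fun p : Ω × ℂ => g p.1 p.2) (univ ×ˢ Kᶜ)) (hn : ∀ ω, NU Kᶜ (g ω)) :
    DifferentiableOn ℂ (av P g) Kᶜ := fun _ hz =>
  (av_hasDerivAt hK hc hn hz).differentiableAt.differentiableWithinAt

theorem av_deriv [CompactSpace Ω] [IsFiniteMeasure P] (hK : IsCompact K)
    (hc : ContinuousOn (fun p : Ω × ℂ => g p.1 p.2) (univ ×ˢ Kᶜ)) (hn : ∀ ω, NU Kᶜ (g ω))
    {z : ℂ} (hz : z ∉ K) : deriv (av P g) z = ∫ ω, deriv (g ω) z ∂P :=
  (av_hasDerivAt hK hc hn hz).deriv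

lemma notMem_of_norm {R : ℝ} (hKR : K ⊆ closedBall 0 R) {z : ℂ} (hz : R < ‖z‖) : z ∉ K := by
  intro h
  have := hKR h
  rw [mem_closedBall, dist_zero_right] at this
  linarith

theorem av_tail [CompactSpace Ω] [IsProbabilityMeasure P]
    (hc : ContinuousOn (fun p : Ω × ℂ => g p.1 p.2) (univ ×ˢ Kᶜ)) (hn : ∀ ω, NU Kᶜ (g ω))
    {R : ℝ} (hR : 0 < R) (hKR : K ⊆ closedBall 0 R) {z : ℂ} (hz : 2 * R < ‖z‖) :
    ‖av P g z - z‖ ≤ 24 * R ^ 2 / ‖z‖ := by
  have hzK : z ∉ K := notMem_of_norm hKR (by linarith)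
  have h1 : av P g z - z = ∫ ω, (g ω z - z) ∂P := by
    rw [integral_sub (int_of_cont (cont_at hc hzK)) (integrable_const _)]
    simp [av]
  rw [h1]
  have h2 := norm_integral_le_of_norm_le_const (μ := P) (f := fun ω => g ω z - z)
    (C := 24 * R ^ 2 / ‖z‖)
    (Eventually.of_forall fun ω => (hn ω).tail hR (compl_subset_compl.2 hKR) hz)
  simpa using h2

theorem av_tendsto [CompactSpace Ω] [IsProbabilityMeasure P] (hK : IsCompact K)
    (hc : ContinuousOn (fun p : Ω × ℂ => g p.1 p.2) (univ ×ˢ Kᶜ)) (hn : ∀ ω, NU Kᶜ (g ω)) :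
    Tendsto (fun z => av P g z - z) (cobounded ℂ) (𝓝 0) := by
  obtain ⟨R₀, hR₀⟩ := hK.isBounded.subset_closedBall 0
  set R : ℝ := max R₀ 1 with hR
  have hR0 : 0 < R := lt_max_of_lt_right one_pos
  have hKR : K ⊆ closedBall 0 R := hR₀.trans (closedBall_subset_closedBall (le_max_left _ _))
  rw [tendsto_zero_iff_norm_tendsto_zero]
  have h1 : Tendsto (fun z : ℂ => 24 * R ^ 2 / ‖z‖) (cobounded ℂ) (𝓝 0) :=
    tendsto_const_nhds.div_atTop tendsto_norm_cobounded_atTop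
  refine squeeze_zero' (Eventually.of_forall fun z => norm_nonneg _) ?_ h1
  filter_upwards [tendsto_norm_cobounded_atTop.eventually (eventually_gt_atTop (2 * R))] with z hz
  exact av_tail hc hn hR0 hKR hz

omit [BorelSpace Ω] in
theorem av_bound [CompactSpace Ω] [IsProbabilityMeasure P]
    (hn : ∀ ω, NU Kᶜ (g ω))
    {R : ℝ} (hR : 0 < R) (hKR : K ⊆ closedBall 0 R) {z : ℂ} (hz : z ∉ K) (hzR : ‖z‖ ≤ R) :
    ‖av P g z‖ ≤ 5 * R := by
  have h2 := norm_integral_le_of_norm_le_const (μ := P) (f := fun ω => g ω z)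
    (C := 5 * R)
    (Eventually.of_forall fun ω => (hn ω).norm_le hR (compl_subset_compl.2 hKR) hz hzR)
  simpa [av] using h2

/-! ### the variance -/

lemma normsq_sub (x m : ℂ) : ‖x - m‖ ^ 2 = ‖x‖ ^ 2 - 2 * (starRingEnd ℂ m * x).re + ‖m‖ ^ 2 := by
  rw [← Complex.normSq_eq_norm_sq, ← Complex.normSq_eq_norm_sq, ← Complex.normSq_eq_norm_sq,
    Complex.normSq_apply, Complex.normSq_apply, Complex.normSq_apply]
  simp only [Complex.sub_re, Complex.sub_im, Complex.mul_re, Complex.conj_re, Complex.conj_im]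
  ring

lemma var_real [CompactSpace Ω] [IsProbabilityMeasure P] {X : Ω → ℂ} (hX : Continuous X) :
    ∫ ω, ‖X ω - ∫ ω', X ω' ∂P‖ ^ 2 ∂P = ∫ ω, ‖X ω‖ ^ 2 ∂P - ‖∫ ω, X ω ∂P‖ ^ 2 := by
  set m := ∫ ω, X ω ∂P with hm
  have h1 : ∀ ω, ‖X ω - m‖ ^ 2 = ‖X ω‖ ^ 2 - 2 * (starRingEnd ℂ m * X ω).re + ‖m‖ ^ 2 :=
    fun ω => normsq_sub _ _
  simp_rw [h1]
  have hi1 : Integrable (fun ω => ‖X ω‖ ^ 2) P := int_of_cont (by fun_prop)
  have hc2 : Continuous fun ω => 2 * (starRingEnd ℂ m * X ω).re :=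
    continuous_const.mul (Complex.continuous_re.comp (continuous_const.mul hX))
  have hi2 : Integrable (fun ω => 2 * (starRingEnd ℂ m * X ω).re) P := int_of_cont hc2
  have hi3 : Integrable (fun ω => ‖X ω‖ ^ 2 - 2 * (starRingEnd ℂ m * X ω).re) P := hi1.sub hi2
  rw [integral_add hi3 (integrable_const _), integral_sub hi1 hi2, integral_const_mul]
  have h2 : ∫ ω, (starRingEnd ℂ m * X ω).re ∂P = ‖m‖ ^ 2 := by
    have hiX : Integrable (fun ω => starRingEnd ℂ m * X ω) P :=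
      (int_of_cont hX).const_mul _
    have h3 : ∫ ω, (starRingEnd ℂ m * X ω).re ∂P = (∫ ω, starRingEnd ℂ m * X ω ∂P).re :=
      integral_re hiX
    rw [h3, integral_const_mul, ← hm, mul_comm, Complex.mul_conj, Complex.normSq_eq_norm_sq]
    norm_cast
  rw [h2]
  simp only [integral_const, probReal_univ, smul_eq_mul, one_mul]
  ring

lemma var_lint [CompactSpace Ω] [IsProbabilityMeasure P] {X : Ω → ℂ} (hX : Continuous X) :
    ENNReal.ofReal (‖∫ ω, X ω ∂P‖ ^ 2) +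
      ∫⁻ ω, ENNReal.ofReal (‖X ω - ∫ ω', X ω' ∂P‖ ^ 2) ∂P =
      ∫⁻ ω, ENNReal.ofReal (‖X ω‖ ^ 2) ∂P := by
  set m := ∫ ω, X ω ∂P with hm
  have hi1 : Integrable (fun ω => ‖X ω‖ ^ 2) P := int_of_cont (by fun_prop)
  have hi2 : Integrable (fun ω => ‖X ω - m‖ ^ 2) P := int_of_cont (by fun_prop)
  rw [← ofReal_integral_eq_lintegral_ofReal hi1 (Eventually.of_forall fun ω => by positivity),
    ← ofReal_integral_eq_lintegral_ofReal hi2 (Eventually.of_forall fun ω => by positivity),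
    ← ENNReal.ofReal_add (by positivity) (integral_nonneg fun ω => by positivity), var_real hX]
  congr 1
  ring

/-- joint measurability -/
lemma aem_prod [SFinite P] (hK : IsCompact K) {f : Ω × ℂ → ENNReal}
    (hf : ContinuousOn f (univ ×ˢ Kᶜ)) {A : Set ℂ} (hA : A ⊆ Kᶜ) (_hAm : MeasurableSet A) :
    AEMeasurable f (P.prod (volume.restrict A)) := by
  have h1 : MeasurableSet ((univ : Set Ω) ×ˢ (Kᶜ : Set ℂ)) :=
    MeasurableSet.univ.prod hK.isClosed.isOpen_compl.measurableSet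
  have h2 : AEMeasurable f ((P.prod volume).restrict (univ ×ˢ Kᶜ)) := hf.aemeasurable h1
  have h3 : P.prod (volume.restrict A) = (P.prod volume).restrict (univ ×ˢ A) := by
    rw [← Measure.prod_restrict, Measure.restrict_univ]
  rw [h3]
  exact h2.mono_measure (Measure.restrict_mono (prod_mono Subset.rfl hA) le_rfl)

/-- **the variance identity** -/
theorem av_var [CompactSpace Ω] [IsProbabilityMeasure P] (hK : IsCompact K)
    (hc : ContinuousOn (fun p : Ω × ℂ => g p.1 p.2) (univ ×ˢ Kᶜ)) (hn : ∀ ω, NU Kᶜ (g ω))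
    {A : Set ℂ} (hA : A ⊆ Kᶜ) (hAm : MeasurableSet A) :
    (∫⁻ z in A, ENNReal.ofReal (‖deriv (av P g) z‖ ^ 2)) +
      ∫⁻ ω, ∫⁻ z in A, ENNReal.ofReal (‖deriv (g ω) z - deriv (av P g) z‖ ^ 2) ∂volume ∂P =
      ∫⁻ ω, ∫⁻ z in A, ENNReal.ofReal (‖deriv (g ω) z‖ ^ 2) ∂volume ∂P := by
  have hKo : IsOpen Kᶜ := hK.isClosed.isOpen_compl
  have hcd := cont_deriv hK hc hn
  have hda : ContinuousOn (deriv (av P g)) Kᶜ :=
    ((av_diff hK hc hn).deriv hKo).continuousOn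
  have hda2 : ContinuousOn (fun p : Ω × ℂ => deriv (av P g) p.2) (univ ×ˢ Kᶜ) :=
    hda.comp continuousOn_snd fun p hp => hp.2
  have hm1 : AEMeasurable (fun p : Ω × ℂ => ENNReal.ofReal (‖deriv (g p.1) p.2 -
      deriv (av P g) p.2‖ ^ 2)) (P.prod (volume.restrict A)) :=
    aem_prod hK (ENNReal.continuous_ofReal.comp_continuousOn ((hcd.sub hda2).norm.pow 2)) hA hAm
  have hm2 : AEMeasurable (fun p : Ω × ℂ => ENNReal.ofReal (‖deriv (g p.1) p.2‖ ^ 2))
      (P.prod (volume.restrict A)) :=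
    aem_prod hK (ENNReal.continuous_ofReal.comp_continuousOn (hcd.norm.pow 2)) hA hAm
  have e1 : ∫⁻ ω, ∫⁻ z in A, ENNReal.ofReal (‖deriv (g ω) z - deriv (av P g) z‖ ^ 2)
      ∂volume ∂P = ∫⁻ z in A, ∫⁻ ω, ENNReal.ofReal (‖deriv (g ω) z - deriv (av P g) z‖ ^ 2)
      ∂P ∂volume := lintegral_lintegral_swap
        (f := fun ω z => ENNReal.ofReal (‖deriv (g ω) z - deriv (av P g) z‖ ^ 2)) hm1
  have e2 : ∫⁻ ω, ∫⁻ z in A, ENNReal.ofReal (‖deriv (g ω) z‖ ^ 2)
      ∂volume ∂P = ∫⁻ z in A, ∫⁻ ω, ENNReal.ofReal (‖deriv (g ω) z‖ ^ 2)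
      ∂P ∂volume := lintegral_lintegral_swap
        (f := fun ω z => ENNReal.ofReal (‖deriv (g ω) z‖ ^ 2)) hm2
  rw [e1, e2, ← lintegral_add_left']
  · refine setLIntegral_congr_fun hAm fun z hz => ?_
    have hzK : z ∉ K := hA hz
    rw [av_deriv hK hc hn hzK]
    exact var_lint (cont_at (g := fun ω => deriv (g ω)) hcd hzK)
  · exact (ENNReal.continuous_ofReal.comp_continuousOn
      ((hda.mono hA).norm.pow 2)).aemeasurable hAm

/-- if the variance vanishes then almost every map is the average -/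
theorem av_eq [CompactSpace Ω] [IsProbabilityMeasure P] (hK : IsCompact K)
    (hpc : IsPreconnected Kᶜ)
    (hc : ContinuousOn (fun p : Ω × ℂ => g p.1 p.2) (univ ×ˢ Kᶜ)) (hn : ∀ ω, NU Kᶜ (g ω))
    (h0 : ∫⁻ ω, ∫⁻ z in Kᶜ, ENNReal.ofReal (‖deriv (g ω) z - deriv (av P g) z‖ ^ 2)
      ∂volume ∂P = 0) : ∀ᵐ ω ∂P, EqOn (g ω) (av P g) Kᶜ := by
  have hKo : IsOpen Kᶜ := hK.isClosed.isOpen_compl
  have hcd := cont_deriv hK hc hn
  have hdav := av_diff (P := P) hK hc hn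
  have hda : ContinuousOn (deriv (av P g)) Kᶜ := (hdav.deriv hKo).continuousOn
  have hda2 : ContinuousOn (fun p : Ω × ℂ => deriv (av P g) p.2) (univ ×ˢ Kᶜ) :=
    hda.comp continuousOn_snd fun p hp => hp.2
  have hm1 : AEMeasurable (fun p : Ω × ℂ => ENNReal.ofReal (‖deriv (g p.1) p.2 -
      deriv (av P g) p.2‖ ^ 2)) (P.prod (volume.restrict Kᶜ)) :=
    aem_prod hK (ENNReal.continuous_ofReal.comp_continuousOn ((hcd.sub hda2).norm.pow 2))
      Subset.rfl hKo.measurableSet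
  have h1 := (lintegral_eq_zero_iff' hm1.lintegral_prod_right').1 h0
  filter_upwards [h1] with ω hω
  have hω' : ∫⁻ z in Kᶜ, ENNReal.ofReal (‖deriv (g ω) z - deriv (av P g) z‖ ^ 2) = 0 := hω
  have hcω : ContinuousOn (fun z => deriv (g ω) z - deriv (av P g) z) Kᶜ :=
    ((hn ω).diff.deriv hKo).continuousOn.sub hda
  have h2 : ∀ᵐ z ∂(volume.restrict Kᶜ), deriv (g ω) z - deriv (av P g) z = 0 := by
    have h3 : AEMeasurable (fun z => ENNReal.ofReal (‖deriv (g ω) z - deriv (av P g) z‖ ^ 2))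
        (volume.restrict Kᶜ) :=
      (ENNReal.continuous_ofReal.comp_continuousOn (hcω.norm.pow 2)).aemeasurable
        hKo.measurableSet
    filter_upwards [(lintegral_eq_zero_iff' h3).1 hω'] with z hz
    have h4 : ENNReal.ofReal (‖deriv (g ω) z - deriv (av P g) z‖ ^ 2) = 0 := hz
    rw [ENNReal.ofReal_eq_zero] at h4
    have h5 : ‖deriv (g ω) z - deriv (av P g) z‖ = 0 := by
      have := norm_nonneg (deriv (g ω) z - deriv (av P g) z)
      nlinarith
    exact norm_eq_zero.1 h5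
  have h3 : EqOn (fun z => deriv (g ω) z - deriv (av P g) z) (fun _ => 0) Kᶜ :=
    Measure.eqOn_open_of_ae_eq h2 hKo hcω continuousOn_const
  -- the difference is constant
  have h4 : ∀ z ∈ Kᶜ, HasDerivAt (fun z => g ω z - av P g z) 0 z := by
    intro z hz
    have h5 := ((hn ω).diff.differentiableAt (hKo.mem_nhds hz)).hasDerivAt.sub
      (hdav.differentiableAt (hKo.mem_nhds hz)).hasDerivAt
    have h6 : deriv (g ω) z - deriv (av P g) z = 0 := h3 hz
    rwa [h6] at h5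
  have hdiff : DifferentiableOn ℂ (fun z => g ω z - av P g z) Kᶜ := (hn ω).diff.sub hdav
  have h5 : ∀ x ∈ Kᶜ, ∀ y ∈ Kᶜ, g ω x - av P g x = g ω y - av P g y := by
    intro x hx y hy
    exact hKo.is_const_of_deriv_eq_zero hpc hdiff (fun z hz => (h4 z hz).deriv) hx hy
  have h6 : Tendsto (fun z => g ω z - av P g z) (cobounded ℂ) (𝓝 0) := by
    have h7 := (hn ω).norm.sub (av_tendsto (P := P) hK hc hn)
    rw [sub_zero] at h7
    refine h7.congr fun z => ?_
    ring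
  intro z hz
  have h7 : Tendsto (fun y => g ω y - av P g y) (cobounded ℂ) (𝓝 (g ω z - av P g z)) := by
    refine tendsto_const_nhds.congr' ?_
    have h8 : Kᶜ ∈ cobounded ℂ := by
      rw [← isBounded_def]
      exact hK.isBounded
    filter_upwards [h8] with y hy using h5 z hz y hy
  have h8 := tendsto_nhds_unique h7 h6
  exact sub_eq_zero.1 h8

/-! ### oscillations -/

lemma av_sub [CompactSpace Ω] [IsFiniteMeasure P]
    (hc : ContinuousOn (fun p : Ω × ℂ => g p.1 p.2) (univ ×ˢ Kᶜ)) {z z' : ℂ} (hz : z ∉ K)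
    (hz' : z' ∉ K) : av P g z - av P g z' = ∫ ω, (g ω z - g ω z') ∂P := by
  rw [integral_sub (int_of_cont (cont_at hc hz)) (int_of_cont (cont_at hc hz'))]
  rfl

theorem norm_av_sub [CompactSpace Ω] [IsFiniteMeasure P]
    (hc : ContinuousOn (fun p : Ω × ℂ => g p.1 p.2) (univ ×ˢ Kᶜ)) {z z' : ℂ} (hz : z ∉ K)
    (hz' : z' ∉ K) : ‖av P g z - av P g z'‖ ≤ ∫ ω, ‖g ω z - g ω z'‖ ∂P := by
  rw [av_sub hc hz hz']
  exact norm_integral_le_integral_norm _

omit [MeasurableSpace Ω] [BorelSpace Ω] in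
/-- the diameter of the image of a compact set depends continuously on the map -/
theorem cont_diam (hK : IsCompact K) (hc : ContinuousOn (fun p : Ω × ℂ => g p.1 p.2) (univ ×ˢ Kᶜ)) {A : Set ℂ}
    (hA : IsCompact A) (hAK : A ⊆ Kᶜ) : Continuous fun ω => diam (g ω '' A) := by
  rcases A.eq_empty_or_nonempty with rfl | hne
  · simp only [image_empty, diam_empty]
    exact continuous_const
  rw [continuous_iff_continuousAt]
  intro ω₀
  rw [ContinuousAt, Metric.tendsto_nhds]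
  intro ε hε
  have hcomp : ∀ ω, IsCompact (g ω '' A) := fun ω =>
    hA.image_of_continuousOn (hc.comp (f := fun z => (ω, z)) (by fun_prop)
      fun z hz => ⟨mem_univ _, hAK hz⟩)
  have h1 : ∀ᶠ ω in 𝓝 ω₀, ∀ z ∈ A, dist (g ω z) (g ω₀ z) < ε / 3 := by
    have h2 := (tendstoLocallyUniformlyOn_iff_forall_isCompact hK.isClosed.isOpen_compl).1
      (tlu hK hc ω₀) A hAK hA
    rw [Metric.tendstoUniformlyOn_iff] at h2
    filter_upwards [h2 (ε / 3) (by positivity)] with ω hω z hz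
    rw [dist_comm]
    exact hω z hz
  filter_upwards [h1] with ω hω
  have h2 : ∀ ω₁ ω₂, (∀ z ∈ A, dist (g ω₁ z) (g ω₂ z) < ε / 3) →
      diam (g ω₁ '' A) ≤ diam (g ω₂ '' A) + 2 * (ε / 3) := by
    intro ω₁ ω₂ h
    refine diam_le_of_forall_dist_le (by positivity) ?_
    rintro _ ⟨x, hx, rfl⟩ _ ⟨y, hy, rfl⟩
    calc dist (g ω₁ x) (g ω₁ y) ≤ dist (g ω₁ x) (g ω₂ x) + dist (g ω₂ x) (g ω₂ y) +
          dist (g ω₂ y) (g ω₁ y) := dist_triangle4 _ _ _ _
      _ ≤ ε / 3 + diam (g ω₂ '' A) + ε / 3 := by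
          gcongr
          · exact (h x hx).le
          · exact dist_le_diam_of_mem (hcomp ω₂).isBounded (mem_image_of_mem _ hx)
              (mem_image_of_mem _ hy)
          · rw [dist_comm]
            exact (h y hy).le
      _ = _ := by ring
  have h3 := h2 ω ω₀ hω
  have h4 := h2 ω₀ ω fun z hz => by
    rw [dist_comm]
    exact hω z hz
  rw [Real.dist_eq, abs_lt]
  constructor <;> linarith

/-- the diameter of the image under the average -/
theorem diam_av_le [CompactSpace Ω] [IsFiniteMeasure P] (hK : IsCompact K)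
    (hc : ContinuousOn (fun p : Ω × ℂ => g p.1 p.2) (univ ×ˢ Kᶜ)) {A : Set ℂ}
    (hA : IsCompact A) (hAK : A ⊆ Kᶜ) : diam (av P g '' A) ≤ ∫ ω, diam (g ω '' A) ∂P := by
  refine diam_le_of_forall_dist_le (integral_nonneg fun ω => diam_nonneg) ?_
  rintro _ ⟨x, hx, rfl⟩ _ ⟨y, hy, rfl⟩
  rw [dist_eq_norm]
  refine (norm_av_sub hc (hAK hx) (hAK hy)).trans ?_
  have h1 : Continuous fun ω => ‖g ω x - g ω y‖ :=
    ((cont_at hc (hAK hx)).sub (cont_at hc (hAK hy))).norm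
  refine integral_mono (int_of_cont h1) (int_of_cont (cont_diam hK hc hA hAK)) fun ω => ?_
  have h2 : IsCompact (g ω '' A) :=
    hA.image_of_continuousOn (hc.comp (f := fun z => (ω, z)) (by fun_prop)
      fun z hz => ⟨mem_univ _, hAK hz⟩)
  change ‖g ω x - g ω y‖ ≤ diam (g ω '' A)
  rw [← dist_eq_norm]
  exact dist_le_diam_of_mem h2.isBounded (mem_image_of_mem _ hx) (mem_image_of_mem _ hy)

/-- the infimum of countably many diameters is measurable -/
theorem meas_inf_diam {ι : Type*} [Countable ι] (hK : IsCompact K)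
    (hc : ContinuousOn (fun p : Ω × ℂ => g p.1 p.2) (univ ×ˢ Kᶜ)) {A : ι → Set ℂ}
    (hA : ∀ i, IsCompact (A i)) (hAK : ∀ i, A i ⊆ Kᶜ) :
    Measurable fun ω => ⨅ i, diam (g ω '' A i) :=
  Measurable.iInf fun i => (cont_diam hK hc (hA i) (hAK i)).measurable

/-- the average of the centres: if `‖g ω z - a ω‖ ≤ b ω` then `‖av z - ∫ a‖ ≤ ∫ b` -/
theorem norm_av_sub_le [CompactSpace Ω] [IsFiniteMeasure P]
    (hc : ContinuousOn (fun p : Ω × ℂ => g p.1 p.2) (univ ×ˢ Kᶜ)) {z : ℂ} (hz : z ∉ K)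
    {a : Ω → ℂ} {b : Ω → ℝ} (ha : Integrable a P) (hb : Integrable b P)
    (h : ∀ᵐ ω ∂P, ‖g ω z - a ω‖ ≤ b ω) : ‖av P g z - ∫ ω, a ω ∂P‖ ≤ ∫ ω, b ω ∂P := by
  have h1 : av P g z - ∫ ω, a ω ∂P = ∫ ω, (g ω z - a ω) ∂P := by
    rw [integral_sub (int_of_cont (cont_at hc hz)) ha]
    rfl
  rw [h1]
  exact norm_integral_le_of_norm_le hb h

end

end Vale.Agent.P116.H521
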